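import Vale.Agent.Tri.StepA
import Vale.Agent.Tri.StepB
import Vale.Agent.Tri.StepC

/-!
# P075 / Tri / Step: step functions; translation of the form into `TV`
-/
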