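import Vale.Agent.Tri.TBb
import Vale.Agent.Tri.TBC

/-!
# P075 / Tri / TB: the trilinear form is bounded by the vertex energies over all scales

`NN H F0 F1 F2 = tr (H F0 H F1 H F2)`, `H` symmetric with `H H = 1`. Notation `Q = Fᵀ F`, `P = F Fᵀ`,
`trunc t F = F (1 + t Q)⁻¹ = (1 + t P)⁻¹ F`.

(1) `trunc s F (trunc s F)ᵀ = F (1+sQ)⁻² Fᵀ ≤ F (1+sQ)⁻¹ Fᵀ = s⁻¹ gg (s P)`, the same with
    `(trunc s F)ᵀ (trunc s F) ≤ s⁻¹ gg (s Q)`.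
(2) `trunc (t/4) F - trunc t F = (3/4) (trunc (t/4) F) (gg (t Q))`.
(3) `|tr (X H Y)| ≤ (c/2) tr (X Xᵀ) + (1/(2c)) tr (Yᵀ Y)`; with `X = gg(t Q2) H T`, `Y = R H A`,
    `T, R = trunc s F0, trunc s' F1` (`s, s' ∈ {t, t/4}`), `A = trunc (t/4) F2`, `Q2 = F2ᵀ F2`:
    `tr (X Xᵀ) ≤ tr (gg(t Q2) H T Tᵀ H) ≤ (4/t) ph(F0, F2; t)`,
    `tr (Yᵀ Y) ≤ (4/t)^2 ph(F2, F1; t)` (as `gg (s P) ≤ gg (t P)` for `s ≤ t`).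
(4) telescoping over `k`, `t = 4^{-k}`: `|NN(k+1) - NN(k)| ≤ 6 * 8^k * (sum of the three energies)`,
    `NN(k) := NN H (trunc 4^{-k} F0) ...`.
-/
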